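import Mathlib

/-!
# P079 (helper81, spare leaf): separable normed spaces embed into `ℓ^∞`

Every separable real normed space has a linear isometry into `lp (fun _ : ℕ => ℝ) ⊤`, the
space of bounded real sequences with the sup norm: `x ↦ (f n x)` for norming functionals
`f n` of a dense sequence.
-/

namespace Vale.Agent.Lib.P079.H81

open TopologicalSpace Set
open scoped ENNReal

variable {X : Type*} [NormedAddCommGroup X] [NormedSpace ℝ X]

/-- The bounded sequence `(f n x)` for a family of functionals of norm at most one. -/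
theorem memℓp_eval (f : ℕ → StrongDual ℝ X) (hf : ∀ n, ‖f n‖ ≤ 1) (x : X) :
    Memℓp (fun n => f n x) ∞ := by
  refine memℓp_infty ⟨‖x‖, ?_⟩
  rintro _ ⟨n, rfl⟩
  calc ‖f n x‖ ≤ ‖f n‖ * ‖x‖ := (f n).le_opNorm x
    _ ≤ 1 * ‖x‖ := mul_le_mul_of_nonneg_right (hf n) (norm_nonneg x)
    _ = ‖x‖ := one_mul _

/-- The linear map `x ↦ (f n x)` into `ℓ^∞`. -/
noncomputable def evalLp (f : ℕ → StrongDual ℝ X) (hf : ∀ n, ‖f n‖ ≤ 1) :
    X →ₗ[ℝ] lp (fun _ : ℕ => ℝ) ∞ where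
  toFun x := ⟨fun n => f n x, memℓp_eval f hf x⟩
  map_add' x y := by
    ext n
    show f n (x + y) = f n x + f n y
    exact map_add _ _ _
  map_smul' c x := by
    ext n
    show f n (c • x) = c • f n x
    exact map_smul _ _ _

theorem evalLp_apply (f : ℕ → StrongDual ℝ X) (hf : ∀ n, ‖f n‖ ≤ 1) (x : X) (n : ℕ) :
    (evalLp f hf x : ℕ → ℝ) n = f n x := rfl

theorem norm_evalLp_le (f : ℕ → StrongDual ℝ X) (hf : ∀ n, ‖f n‖ ≤ 1) (x : X) :
    ‖evalLp f hf x‖ ≤ ‖x‖ := by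
  refine lp.norm_le_of_forall_le (norm_nonneg x) fun n => ?_
  rw [evalLp_apply]
  calc ‖f n x‖ ≤ ‖f n‖ * ‖x‖ := (f n).le_opNorm x
    _ ≤ 1 * ‖x‖ := mul_le_mul_of_nonneg_right (hf n) (norm_nonneg x)
    _ = ‖x‖ := one_mul _

/-- Every separable real normed space has a linear isometry into `ℓ^∞`. -/
theorem exists_linearIsometry_lp_infty [SeparableSpace X] :
    Nonempty (X →ₗᵢ[ℝ] lp (fun _ : ℕ => ℝ) ∞) := by
  have hd : DenseRange (denseSeq X) := denseRange_denseSeq X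
  choose f hf1 hf2' using fun n : ℕ => exists_dual_vector'' ℝ (denseSeq X n)
  have hf2 : ∀ n, f n (denseSeq X n) = ‖denseSeq X n‖ := fun n => by simpa using hf2' n
  refine ⟨⟨evalLp f hf1, fun x => le_antisymm (norm_evalLp_le f hf1 x) ?_⟩⟩
  refine le_of_forall_pos_le_add fun ε hε => ?_
  obtain ⟨n, hn⟩ := hd.exists_dist_lt x (half_pos hε)
  rw [dist_eq_norm] at hn
  have h1 : ‖f n (x - denseSeq X n)‖ ≤ ‖x - denseSeq X n‖ := by
    calc ‖f n (x - denseSeq X n)‖ ≤ ‖f n‖ * ‖x - denseSeq X n‖ := (f n).le_opNorm _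
      _ ≤ 1 * ‖x - denseSeq X n‖ := mul_le_mul_of_nonneg_right (hf1 n) (norm_nonneg _)
      _ = ‖x - denseSeq X n‖ := one_mul _
  have h2 : f n x = ‖denseSeq X n‖ + f n (x - denseSeq X n) := by
    rw [map_sub, hf2 n]
    ring
  have h3 : ‖x‖ ≤ ‖denseSeq X n‖ + ‖x - denseSeq X n‖ := by
    calc ‖x‖ = ‖denseSeq X n + (x - denseSeq X n)‖ := by rw [add_sub_cancel]
      _ ≤ ‖denseSeq X n‖ + ‖x - denseSeq X n‖ := norm_add_le _ _
  have h4 : ‖f n x‖ ≤ ‖evalLp f hf1 x‖ := by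
    rw [← evalLp_apply f hf1 x n]
    exact lp.norm_apply_le_norm ENNReal.top_ne_zero _ n
  have h5 : ‖denseSeq X n‖ - ‖x - denseSeq X n‖ ≤ ‖f n x‖ := by
    rw [h2, Real.norm_eq_abs]
    have := abs_le.1 (Real.norm_eq_abs _ ▸ h1)
    calc ‖denseSeq X n‖ - ‖x - denseSeq X n‖ ≤ ‖denseSeq X n‖ + f n (x - denseSeq X n) := by
          linarith [this.1]
      _ ≤ |‖denseSeq X n‖ + f n (x - denseSeq X n)| := le_abs_self _
  show ‖x‖ ≤ ‖evalLp f hf1 x‖ + ε
  linarith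

end Vale.Agent.Lib.P079.H81
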