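import Mathlib
import Vale.Agent.Lib.P079.helper81.EllInfty

/-!
# P079 (helper81, spare leaf): reduction to closed subspaces of `ℓ^∞`

Reflexivity and the fixed point property for nonexpansive maps pass along linear isometric
equivalences; hence the fixed point property of all reflexive closed subspaces of `ℓ^∞` gives
that of all separable reflexive real Banach spaces (everything written out, no definitions).
-/

namespace Vale.Agent.Lib.P079.H81

open TopologicalSpace Set NormedSpace
open scoped ENNReal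

/-- Reflexivity (the canonical map into the bidual is onto) passes along a linear isometric
equivalence. -/
theorem reflexive_of_equiv {X Y : Type*} [NormedAddCommGroup X] [NormedSpace ℝ X]
    [NormedAddCommGroup Y] [NormedSpace ℝ Y] (e : X ≃ₗᵢ[ℝ] Y)
    (hX : Function.Surjective (inclusionInDoubleDual ℝ X)) :
    Function.Surjective (inclusionInDoubleDual ℝ Y) := by
  intro ψ
  set E : X →L[ℝ] Y := e.toLinearIsometry.toContinuousLinearMap with hE
  set Es : Y →L[ℝ] X := e.symm.toLinearIsometry.toContinuousLinearMap with hEs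
  set pre : StrongDual ℝ X →L[ℝ] StrongDual ℝ Y :=
    (ContinuousLinearMap.compL ℝ Y X ℝ).flip Es with hpre
  have hpre_apply : ∀ (g : StrongDual ℝ X) (y : Y), pre g y = g (e.symm y) := fun g y => rfl
  obtain ⟨x, hx⟩ := hX (ψ.comp pre)
  refine ⟨e x, ?_⟩
  ext h
  have h1 : (h.comp E) x = ψ (pre (h.comp E)) := by
    have := congrArg (fun Φ : StrongDual ℝ (StrongDual ℝ X) => Φ (h.comp E)) hx
    simpa using this
  have h2 : pre (h.comp E) = h := by
    ext y
    rw [hpre_apply]
    show h (e (e.symm y)) = h y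
    rw [e.apply_symm_apply]
  rw [dual_def]
  calc h (e x) = (h.comp E) x := rfl
    _ = ψ (pre (h.comp E)) := h1
    _ = ψ h := by rw [h2]

/-- The fixed point property for nonexpansive maps passes along a linear isometric
equivalence. -/
theorem fpp_of_equiv {X Y : Type*} [NormedAddCommGroup X] [NormedSpace ℝ X]
    [NormedAddCommGroup Y] [NormedSpace ℝ Y] (e : X ≃ₗᵢ[ℝ] Y)
    (hY : ∀ C : Set Y, C.Nonempty → IsClosed C → Bornology.IsBounded C → Convex ℝ C →
      ∀ T : Y → Y, MapsTo T C C → (∀ a ∈ C, ∀ b ∈ C, ‖T a - T b‖ ≤ ‖a - b‖) →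
      ∃ x ∈ C, T x = x)
    (C : Set X) (hCne : C.Nonempty) (hC : IsClosed C) (hb : Bornology.IsBounded C)
    (hconv : Convex ℝ C) (T : X → X) (hT : MapsTo T C C)
    (hne : ∀ a ∈ C, ∀ b ∈ C, ‖T a - T b‖ ≤ ‖a - b‖) : ∃ x ∈ C, T x = x := by
  set C' : Set Y := (fun y => e.symm y) ⁻¹' C with hC'
  set T' : Y → Y := fun y => e (T (e.symm y)) with hT'
  have h1 : C'.Nonempty := by
    obtain ⟨x, hx⟩ := hCne
    refine ⟨e x, ?_⟩
    show e.symm (e x) ∈ C
    rw [e.symm_apply_apply]
    exact hx
  have h2 : IsClosed C' := hC.preimage e.symm.continuous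
  have h3 : Bornology.IsBounded C' := by
    obtain ⟨R, hR⟩ := Metric.isBounded_iff.1 hb
    refine Metric.isBounded_iff.2 ⟨R, fun a ha b hb' => ?_⟩
    have := hR ha hb'
    rwa [e.symm.dist_map] at this
  have h4 : Convex ℝ C' := hconv.linear_preimage e.symm.toLinearEquiv.toLinearMap
  have h5 : MapsTo T' C' C' := by
    intro y hy
    show e.symm (e (T (e.symm y))) ∈ C
    rw [e.symm_apply_apply]
    exact hT hy
  have h6 : ∀ a ∈ C', ∀ b ∈ C', ‖T' a - T' b‖ ≤ ‖a - b‖ := by
    intro a ha b hb'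
    have := hne _ ha _ hb'
    calc ‖T' a - T' b‖ = ‖e (T (e.symm a) - T (e.symm b))‖ := by rw [map_sub]
      _ = ‖T (e.symm a) - T (e.symm b)‖ := e.norm_map _
      _ ≤ ‖e.symm a - e.symm b‖ := this
      _ = ‖e.symm (a - b)‖ := by rw [map_sub]
      _ = ‖a - b‖ := e.symm.norm_map _
  obtain ⟨y, hy, hfix⟩ := hY C' h1 h2 h3 h4 T' h5 h6
  refine ⟨e.symm y, hy, ?_⟩
  have := congrArg e.symm hfix
  rw [hT', e.symm_apply_apply] at this
  exact this

/-- The fixed point property of all reflexive closed subspaces of `ℓ^∞` gives the fixed point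
property of every separable reflexive real Banach space. -/
theorem fpp_of_lp_infty_subspaces.{u}
    (hℓ : ∀ Y : Submodule ℝ (lp (fun _ : ℕ => ℝ) ∞),
      IsClosed (Y : Set (lp (fun _ : ℕ => ℝ) ∞)) →
      Function.Surjective (inclusionInDoubleDual ℝ Y) →
      ∀ C : Set Y, C.Nonempty → IsClosed C → Bornology.IsBounded C → Convex ℝ C →
      ∀ T : Y → Y, MapsTo T C C → (∀ a ∈ C, ∀ b ∈ C, ‖T a - T b‖ ≤ ‖a - b‖) →
      ∃ x ∈ C, T x = x)
    (X : Type u) [NormedAddCommGroup X] [NormedSpace ℝ X] [CompleteSpace X] [SeparableSpace X]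
    (hX : Function.Surjective (inclusionInDoubleDual ℝ X))
    (C : Set X) (hCne : C.Nonempty) (hC : IsClosed C) (hb : Bornology.IsBounded C)
    (hconv : Convex ℝ C) (T : X → X) (hT : MapsTo T C C)
    (hne : ∀ a ∈ C, ∀ b ∈ C, ‖T a - T b‖ ≤ ‖a - b‖) : ∃ x ∈ C, T x = x := by
  obtain ⟨L⟩ := exists_linearIsometry_lp_infty (X := X)
  have hYcl : IsClosed (LinearMap.range L.toLinearMap : Set (lp (fun _ : ℕ => ℝ) ∞)) := by
    have h : IsComplete (Set.range L) := L.isometry.isUniformInducing.isComplete_range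
    rw [LinearMap.coe_range]
    exact h.isClosed
  exact fpp_of_equiv L.equivRange
    (hℓ (LinearMap.range L.toLinearMap) hYcl (reflexive_of_equiv L.equivRange hX))
    C hCne hC hb hconv T hT hne

end Vale.Agent.Lib.P079.H81
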