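import Mathlib

/-!
# P079 (helper81, spare leaf): a closed subspace of a reflexive space is reflexive

Reflexivity is written out as surjectivity of the canonical map into the bidual
(`NormedSpace.inclusionInDoubleDual`), so that the file has no definition of its own.
-/

namespace Vale.Agent.Lib.P079.H81

open NormedSpace

/-- A continuous linear functional that is bounded below on a subspace vanishes on it. -/
theorem eq_zero_of_bounded_below {X : Type*} [NormedAddCommGroup X] [NormedSpace ℝ X]
    (Y : Subspace ℝ X) (f : StrongDual ℝ X) (u : ℝ) (h : ∀ y ∈ Y, u < f y) :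
    ∀ y ∈ Y, f y = 0 := by
  intro y hy
  by_contra hne
  have hu0 : u < 0 := by simpa using h 0 Y.zero_mem
  have hmem : ((u - 1) / f y) • y ∈ Y := Y.smul_mem _ hy
  have h1 := h _ hmem
  rw [map_smul, smul_eq_mul, div_mul_cancel₀ _ hne] at h1
  linarith

/-- A closed subspace of a reflexive real normed space is reflexive. -/
theorem subspace_reflexive {X : Type*} [NormedAddCommGroup X] [NormedSpace ℝ X]
    (hX : Function.Surjective (inclusionInDoubleDual ℝ X)) (Y : Subspace ℝ X)
    (hY : IsClosed (Y : Set X)) :
    Function.Surjective (inclusionInDoubleDual ℝ Y) := by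
  intro ψ
  -- restriction of functionals to `Y`
  set res : StrongDual ℝ X →L[ℝ] StrongDual ℝ Y :=
    (ContinuousLinearMap.compL ℝ Y X ℝ).flip Y.subtypeL with hres
  have hres_apply : ∀ (f : StrongDual ℝ X) (y : Y), res f y = f y := fun f y => rfl
  obtain ⟨x, hx⟩ := hX (ψ.comp res)
  have hx' : ∀ f : StrongDual ℝ X, f x = ψ (res f) := by
    intro f
    have := congrArg (fun Φ : StrongDual ℝ (StrongDual ℝ X) => Φ f) hx
    simpa using this
  -- `x` lies in `Y`
  have hxY : x ∈ Y := by
    by_contra hxn
    obtain ⟨f, u, hfx, hfY⟩ := geometric_hahn_banach_point_closed Y.convex hY hxn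
    have hzero : ∀ y ∈ Y, f y = 0 := eq_zero_of_bounded_below Y f u hfY
    have hu0 : u < 0 := by simpa using hfY 0 Y.zero_mem
    have hres0 : res f = 0 := by
      ext y
      rw [hres_apply]
      exact hzero y y.2
    have := hx' f
    rw [hres0, map_zero] at this
    linarith
  refine ⟨⟨x, hxY⟩, ?_⟩
  ext g
  obtain ⟨f, hf, -⟩ := exists_extension_norm_eq Y g
  have hfg : res f = g := by
    ext y
    rw [hres_apply]
    exact hf y
  rw [dual_def, ← hfg, ← hx' f, hres_apply]

end Vale.Agent.Lib.P079.H81
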