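import Mathlib
import Vale.Agent.Lib.P079.helper81.SubspaceReflexive

/-!
# P079 (helper81, spare leaf): a separable closed convex invariant set

For a closed convex set `C`, a map `T` of `C` into itself that is nonexpansive on `C` and a
point `x0` of `C`, there is a closed convex `T`-invariant subset `D` of `C` containing `x0`
that lies in a closed separable subspace.  From this and the reflexivity of closed subspaces:
the fixed point property of all separable reflexive spaces gives that of all reflexive spaces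
(everything written out, no definition except the auxiliary sequence `hullSeq`).
-/

namespace Vale.Agent.Lib.P079.H81

open TopologicalSpace Set NormedSpace

section Hull

variable {X : Type*} [NormedAddCommGroup X] [NormedSpace ℝ X]

/-- Start with `{x0}`; at each step add the image under `T` and take the closed convex hull. -/
def hullSeq (T : X → X) (x0 : X) : ℕ → Set X
  | 0 => {x0}
  | n + 1 => closure (convexHull ℝ (hullSeq T x0 n ∪ T '' hullSeq T x0 n))

theorem hullSeq_zero (T : X → X) (x0 : X) : hullSeq T x0 0 = {x0} := rfl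

theorem hullSeq_succ (T : X → X) (x0 : X) (n : ℕ) :
    hullSeq T x0 (n + 1) = closure (convexHull ℝ (hullSeq T x0 n ∪ T '' hullSeq T x0 n)) := rfl

theorem hullSeq_subset_succ (T : X → X) (x0 : X) (n : ℕ) :
    hullSeq T x0 n ⊆ hullSeq T x0 (n + 1) := by
  rw [hullSeq_succ]
  exact subset_union_left.trans ((subset_convexHull ℝ _).trans subset_closure)

theorem image_hullSeq_subset_succ (T : X → X) (x0 : X) (n : ℕ) :
    T '' hullSeq T x0 n ⊆ hullSeq T x0 (n + 1) := by
  rw [hullSeq_succ]
  exact subset_union_right.trans ((subset_convexHull ℝ _).trans subset_closure)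

theorem hullSeq_mono (T : X → X) (x0 : X) : Monotone (hullSeq T x0) :=
  monotone_nat_of_le_succ (hullSeq_subset_succ T x0)

theorem convex_hullSeq (T : X → X) (x0 : X) (n : ℕ) : Convex ℝ (hullSeq T x0 n) := by
  cases n with
  | zero => rw [hullSeq_zero]; exact convex_singleton x0
  | succ n => rw [hullSeq_succ]; exact (convex_convexHull ℝ _).closure

theorem hullSeq_subset {C : Set X} (hC : IsClosed C) (hconv : Convex ℝ C) (T : X → X)
    (hT : MapsTo T C C) {x0 : X} (hx0 : x0 ∈ C) (n : ℕ) : hullSeq T x0 n ⊆ C := by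
  induction n with
  | zero => rw [hullSeq_zero]; exact singleton_subset_iff.2 hx0
  | succ n ih =>
    rw [hullSeq_succ]
    refine closure_minimal (convexHull_min (union_subset ih ?_) hconv) hC
    rintro _ ⟨y, hy, rfl⟩
    exact hT (ih hy)

omit [NormedSpace ℝ X] in
/-- The image of a separable subset of `C` under a map that is nonexpansive on `C`. -/
theorem isSeparable_image_of_nonexpansive {C : Set X} (T : X → X)
    (hne : ∀ a ∈ C, ∀ b ∈ C, ‖T a - T b‖ ≤ ‖a - b‖) {S : Set X} (hSC : S ⊆ C)
    (hS : IsSeparable S) : IsSeparable (T '' S) := by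
  obtain ⟨t, htS, htc, hSt⟩ := hS.exists_countable_dense_subset
  refine ⟨T '' t, htc.image T, ?_⟩
  rintro _ ⟨x, hx, rfl⟩
  rw [Metric.mem_closure_iff]
  intro ε hε
  obtain ⟨y, hy, hxy⟩ := Metric.mem_closure_iff.1 (hSt hx) ε hε
  refine ⟨T y, mem_image_of_mem T hy, ?_⟩
  rw [dist_eq_norm] at hxy ⊢
  exact (hne x (hSC hx) y (hSC (htS hy))).trans_lt hxy

theorem isSeparable_hullSeq {C : Set X} (hC : IsClosed C) (hconv : Convex ℝ C) (T : X → X)
    (hT : MapsTo T C C) (hne : ∀ a ∈ C, ∀ b ∈ C, ‖T a - T b‖ ≤ ‖a - b‖) {x0 : X}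
    (hx0 : x0 ∈ C) (n : ℕ) : IsSeparable (hullSeq T x0 n) := by
  induction n with
  | zero => rw [hullSeq_zero]; exact (countable_singleton x0).isSeparable
  | succ n ih =>
    rw [hullSeq_succ]
    have h1 : IsSeparable (hullSeq T x0 n ∪ T '' hullSeq T x0 n) :=
      ih.union (isSeparable_image_of_nonexpansive T hne (hullSeq_subset hC hconv T hT hx0 n) ih)
    have h2 : IsSeparable (convexHull ℝ (hullSeq T x0 n ∪ T '' hullSeq T x0 n)) :=
      (h1.span (R := ℝ)).mono (convexHull_min Submodule.subset_span (Submodule.convex _))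
    exact isSeparable_closure.2 h2

/-- A closed convex invariant subset of `C` through `x0` inside a closed separable subspace. -/
theorem exists_separable_invariant {C : Set X} (hC : IsClosed C) (hconv : Convex ℝ C)
    (T : X → X) (hT : MapsTo T C C) (hne : ∀ a ∈ C, ∀ b ∈ C, ‖T a - T b‖ ≤ ‖a - b‖)
    {x0 : X} (hx0 : x0 ∈ C) :
    ∃ (D : Set X) (Y : Submodule ℝ X), x0 ∈ D ∧ D ⊆ C ∧ IsClosed D ∧ Convex ℝ D ∧
      MapsTo T D D ∧ D ⊆ (Y : Set X) ∧ IsClosed (Y : Set X) ∧ IsSeparable (Y : Set X) := by
  set U : Set X := ⋃ n, hullSeq T x0 n with hU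
  have hUC : U ⊆ C := iUnion_subset fun n => hullSeq_subset hC hconv T hT hx0 n
  have hDC : closure U ⊆ C := closure_minimal hUC hC
  have hUsep : IsSeparable U :=
    IsSeparable.iUnion fun n => isSeparable_hullSeq hC hconv T hT hne hx0 n
  have hDsep : IsSeparable (closure U) := isSeparable_closure.2 hUsep
  have hUconv : Convex ℝ U :=
    Directed.convex_iUnion (hullSeq_mono T x0).directed_le (fun n => convex_hullSeq T x0 n)
  refine ⟨closure U, (Submodule.span ℝ (closure U)).topologicalClosure, ?_, hDC,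
    isClosed_closure, hUconv.closure, ?_, ?_, Submodule.isClosed_topologicalClosure _, ?_⟩
  · exact subset_closure (mem_iUnion.2 ⟨0, by rw [hullSeq_zero]; exact mem_singleton x0⟩)
  · intro y hy
    rw [Metric.mem_closure_iff]
    intro ε hε
    obtain ⟨z, hz, hyz⟩ := Metric.mem_closure_iff.1 hy ε hε
    obtain ⟨n, hn⟩ := mem_iUnion.1 hz
    refine ⟨T z, mem_iUnion.2 ⟨n + 1, image_hullSeq_subset_succ T x0 n (mem_image_of_mem T hn)⟩,
      ?_⟩
    rw [dist_eq_norm] at hyz ⊢
    exact (hne y (hDC hy) z (hUC hz)).trans_lt hyz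
  · exact Submodule.subset_span.trans (Submodule.le_topologicalClosure _)
  · rw [Submodule.topologicalClosure_coe]
    exact isSeparable_closure.2 (hDsep.span (R := ℝ))

end Hull

/-- The fixed point property for nonexpansive maps, for all separable reflexive real Banach
spaces, gives it for all reflexive real Banach spaces (same universe).  Reflexive: the
canonical map into the bidual is onto. -/
theorem fpp_of_separable.{u}
    (hsep : ∀ (Y : Type u) [NormedAddCommGroup Y] [NormedSpace ℝ Y] [CompleteSpace Y]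
      [SeparableSpace Y], Function.Surjective (inclusionInDoubleDual ℝ Y) →
      ∀ C : Set Y, C.Nonempty → IsClosed C → Bornology.IsBounded C → Convex ℝ C →
      ∀ T : Y → Y, MapsTo T C C → (∀ a ∈ C, ∀ b ∈ C, ‖T a - T b‖ ≤ ‖a - b‖) →
      ∃ x ∈ C, T x = x)
    (X : Type u) [NormedAddCommGroup X] [NormedSpace ℝ X] [CompleteSpace X]
    (hX : Function.Surjective (inclusionInDoubleDual ℝ X))
    (C : Set X) (hCne : C.Nonempty) (hC : IsClosed C) (hb : Bornology.IsBounded C)
    (hconv : Convex ℝ C) (T : X → X) (hT : MapsTo T C C)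
    (hne : ∀ a ∈ C, ∀ b ∈ C, ‖T a - T b‖ ≤ ‖a - b‖) :
    ∃ x ∈ C, T x = x := by
  classical
  obtain ⟨x0, hx0⟩ := hCne
  obtain ⟨D, Y, hx0D, hDC, hDcl, hDconv, hTD, hDY, hYcl, hYsep⟩ :=
    exists_separable_invariant hC hconv T hT hne hx0
  have : CompleteSpace Y := hYcl.completeSpace_coe
  have : SeparableSpace Y := hYsep.separableSpace
  have hYrefl : Function.Surjective (inclusionInDoubleDual ℝ Y) := subspace_reflexive hX Y hYcl
  set D' : Set Y := (Y.subtype : Y → X) ⁻¹' D with hD'
  set T' : Y → Y := fun y => if h : T (y : X) ∈ Y then ⟨T y, h⟩ else y with hT'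
  have hT'val : ∀ y : Y, (y : X) ∈ D → ((T' y : Y) : X) = T (y : X) := by
    intro y hy
    have h : T (y : X) ∈ Y := hDY (hTD hy)
    simp only [hT', dif_pos h]
  have h1 : D'.Nonempty := ⟨⟨x0, hDY hx0D⟩, hx0D⟩
  have h2 : IsClosed D' := hDcl.preimage continuous_subtype_val
  have h3 : Bornology.IsBounded D' := by
    obtain ⟨R, hR⟩ := Metric.isBounded_iff.1 (hb.subset hDC)
    exact Metric.isBounded_iff.2 ⟨R, fun a ha b hb => hR ha hb⟩
  have h4 : Convex ℝ D' := hDconv.linear_preimage Y.subtype
  have h5 : MapsTo T' D' D' := by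
    intro y hy
    show ((T' y : Y) : X) ∈ D
    rw [hT'val y hy]
    exact hTD hy
  have h6 : ∀ a ∈ D', ∀ b ∈ D', ‖T' a - T' b‖ ≤ ‖a - b‖ := by
    intro a ha b hb
    have := hne (a : X) (hDC ha) (b : X) (hDC hb)
    rw [← hT'val a ha, ← hT'val b hb] at this
    exact this
  obtain ⟨y, hy, hfix⟩ := hsep Y hYrefl D' h1 h2 h3 h4 T' h5 h6
  refine ⟨(y : X), hDC hy, ?_⟩
  rw [← hT'val y hy, hfix]

end Vale.Agent.Lib.P079.H81
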